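import Mathlib

/-! Flat local extensions with artinian closed fibre whose maximal ideal is not principal:
if `n ^ s ⊆ m S` then already `n ^ s ⊆ (m S) n`. -/

namespace Vale.Agent.P202

open IsLocalRing Filter Topology

variable {R S : Type*} [CommRing R] [CommRing S] [IsLocalRing R] [IsLocalRing S]
  [IsNoetherianRing R] [IsNoetherianRing S] [Algebra R S] [IsLocalHom (algebraMap R S)]

/-- The extended maximal ideal `m S`. -/
noncomputable abbrev mS (R S : Type*) [CommRing R] [CommRing S] [IsLocalRing R] [Algebra R S] :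
    Ideal S := (maximalIdeal R).map (algebraMap R S)

lemma mS_le : mS R S ≤ maximalIdeal S := by
  have := map_maximalIdeal_lt_top (algebraMap R S)
  exact le_maximalIdeal this.ne

/-- A generating family of `m` all of whose relations have coefficients in `m`. -/
lemma exists_minimal_gens : ∃ g : Finset R, Ideal.span (g : Set R) = maximalIdeal R ∧
    ∀ a : g → R, ∑ i, a i * i.1 = 0 → ∀ i, a i ∈ maximalIdeal R := by
  classical
  have hex : ∃ k, ∃ g : Finset R, g.card = k ∧ Ideal.span (g : Set R) = maximalIdeal R := by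
    obtain ⟨g, hg⟩ := IsNoetherian.noetherian (maximalIdeal R)
    exact ⟨g.card, g, rfl, hg⟩
  obtain ⟨g, hgc, hg⟩ := Nat.find_spec hex
  refine ⟨g, hg, fun a ha i => ?_⟩
  by_contra hi
  have hu : IsUnit (a i) := by simpa [mem_maximalIdeal] using hi
  have hmem : a i * i.1 ∈ Ideal.span ((g.erase i.1 : Finset R) : Set R) := by
    rw [← Finset.add_sum_erase _ _ (Finset.mem_univ i), add_eq_zero_iff_eq_neg] at ha
    rw [ha]
    refine Ideal.neg_mem_iff _ |>.2 (Ideal.sum_mem _ fun j hj => ?_)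
    refine Ideal.mul_mem_left _ _ (Ideal.subset_span ?_)
    have hne : j.1 ≠ i.1 := fun h => (Finset.ne_of_mem_erase hj) (Subtype.ext h)
    simp [hne]
  rw [Ideal.unit_mul_mem_iff_mem _ hu] at hmem
  have hle : Ideal.span (g : Set R) ≤ Ideal.span ((g.erase i.1 : Finset R) : Set R) := by
    refine Ideal.span_le.2 fun y hy => ?_
    by_cases h : y = i.1
    · exact h ▸ hmem
    · exact Ideal.subset_span (by simp [h]; exact hy)
  have heq : Ideal.span ((g.erase i.1 : Finset R) : Set R) = maximalIdeal R :=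
    le_antisymm (hg ▸ Ideal.span_mono (by simp)) (hg ▸ hle)
  refine Nat.find_min hex ?_ ⟨g.erase i.1, rfl, heq⟩
  rw [← hgc]
  exact Finset.card_erase_lt_of_mem i.2

lemma mem_mS_iff {g : Finset R} (hg : Ideal.span (g : Set R) = maximalIdeal R) (c : S) :
    c ∈ mS R S ↔ ∃ f : g → S, ∑ i, algebraMap R S i.1 * f i = c := by
  rw [show mS R S = Ideal.span (Set.range fun i : g => algebraMap R S i.1) by
    rw [mS, ← hg, Ideal.map_span]; congr 1; ext; simp]
  rw [Ideal.mem_span_range_iff_exists_fun]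
  simp [mul_comm]

/-- The key step: `n ^ s ⊆ m S` improves to `n ^ s ⊆ (m S) n`. -/
lemma pow_le_mul [Module.Flat R S] {s : ℕ}
    (hs : maximalIdeal S ^ s ≤ mS R S)
    (hnp : ∀ u : S, maximalIdeal S ≠ mS R S ⊔ Ideal.span {u}) :
    maximalIdeal S ^ s ≤ mS R S * maximalIdeal S := by
  obtain ⟨g, hg, hrel⟩ := exists_minimal_gens (R := R)
  have hI : mS R S ≤ maximalIdeal S := mS_le
  rcases s with _ | k
  · rw [pow_zero, Ideal.one_eq_top] at hs
    exact absurd (eq_top_iff.2 (hs.trans hI)) (maximalIdeal.isMaximal S).ne_top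
  rw [pow_succ']
  refine Ideal.mul_le.2 fun u hu w hw => ?_
  obtain ⟨z, hz, hz'⟩ : ∃ z ∈ maximalIdeal S, z ∉ mS R S ⊔ Ideal.span {u} := by
    refine SetLike.not_le_iff_exists.1 fun h => hnp u (le_antisymm h ?_)
    exact sup_le hI ((Ideal.span_singleton_le_iff_mem _).2 hu)
  have h1 : u * w ∈ mS R S := hs (pow_succ' (maximalIdeal S) k ▸ Ideal.mul_mem_mul hu hw)
  have h2 : z * w ∈ mS R S := hs (pow_succ' (maximalIdeal S) k ▸ Ideal.mul_mem_mul hz hw)
  obtain ⟨f, hf⟩ := (mem_mS_iff hg _).1 h1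
  obtain ⟨f', hf'⟩ := (mem_mS_iff hg _).1 h2
  have hrel0 : ∑ i : g, i.1 • (f i * z - f' i * u) = 0 := by
    simp only [Algebra.smul_def, mul_sub, Finset.sum_sub_distrib, ← mul_assoc, ← Finset.sum_mul,
      hf, hf']
    ring
  obtain ⟨κ, a, y, hy, ha⟩ :=
    Module.Flat.isTrivialRelation_of_sum_smul_eq_zero (R := R) (M := S)
      (f := fun i : g => i.1) (x := fun i => f i * z - f' i * u) (by convert hrel0 using 2)
  have hmem : ∀ i, f i * z - f' i * u ∈ mS R S := fun i => by
    rw [show f i * z - f' i * u = _ from hy i]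
    refine Ideal.sum_mem _ fun j _ => ?_
    rw [Algebra.smul_def]
    refine Ideal.mul_mem_right _ _ (Ideal.mem_map_of_mem _ (hrel (fun i => a i j) ?_ i))
    rw [← ha j]
    exact Finset.sum_congr rfl fun i _ => by rw [mul_comm]
  have hfn : ∀ i, f i ∈ maximalIdeal S := fun i => by
    by_contra hi
    have hunit : IsUnit (f i) := by simpa [mem_maximalIdeal] using hi
    refine hz' ((Ideal.unit_mul_mem_iff_mem _ hunit).1 ?_)
    have : f i * z = (f i * z - f' i * u) + f' i * u := by ring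
    rw [this]
    exact Submodule.add_mem_sup (hmem i) (Ideal.mem_span_singleton'.2 ⟨f' i, rfl⟩)
  rw [← hf]
  exact Ideal.sum_mem _ fun i _ => Ideal.mul_mem_mul
    (Ideal.mem_map_of_mem _ (hg ▸ Ideal.subset_span i.2)) (hfn i)

/-- Powers: `n ^ (t N + 1) ⊆ (m S) ^ N n` when `n ^ (t + 1) ⊆ (m S) n`. -/
lemma pow_le_pow_mul [Module.Flat R S] {t : ℕ}
    (h : maximalIdeal S ^ (t + 1) ≤ mS R S * maximalIdeal S) :
    ∀ N, maximalIdeal S ^ (t * N + 1) ≤ mS R S ^ N * maximalIdeal S
  | 0 => by simp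
  | N + 1 => by
    calc maximalIdeal S ^ (t * (N + 1) + 1)
        = maximalIdeal S ^ t * maximalIdeal S ^ (t * N + 1) := by rw [← pow_add]; ring_nf
      _ ≤ maximalIdeal S ^ t * (mS R S ^ N * maximalIdeal S) :=
          mul_le_mul' le_rfl (pow_le_pow_mul h N)
      _ = mS R S ^ N * maximalIdeal S ^ (t + 1) := by ring
      _ ≤ mS R S ^ N * (mS R S * maximalIdeal S) := mul_le_mul' le_rfl h
      _ = mS R S ^ (N + 1) * maximalIdeal S := by ring

/-- Length form of the inequality. -/
lemma length_le [Module.Flat R S] {t : ℕ} (hs : maximalIdeal S ^ (t + 1) ≤ mS R S)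
    (hnp : ∀ u : S, maximalIdeal S ≠ mS R S ⊔ Ideal.span {u}) (N : ℕ) :
    Module.length R (R ⧸ maximalIdeal R ^ N) * Module.length S (S ⧸ mS R S)
      ≤ Module.length S (S ⧸ maximalIdeal S ^ (t * N + 1)) := by
  rw [← IsLocalRing.length_baseChange R S (R ⧸ maximalIdeal R ^ N),
    ← (Algebra.TensorProduct.quotIdealMapEquivTensorQuot S
      (maximalIdeal R ^ N)).toLinearEquiv.length_eq, Ideal.map_pow]
  have hle : maximalIdeal S ^ (t * N + 1) ≤ mS R S ^ N :=
    (pow_le_pow_mul (pow_le_mul hs hnp) N).trans Ideal.mul_le_left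
  exact Module.length_le_of_surjective (Submodule.factor hle) (Submodule.factor_surjective hle)

lemma length_quot_ne_top {A : Type*} [CommRing A] [IsLocalRing A] [IsNoetherianRing A] (k : ℕ) :
    Module.length A (A ⧸ maximalIdeal A ^ k) ≠ ⊤ := by
  rw [Module.length_ne_top_iff, isFiniteLength_iff_isNoetherian_isArtinian]
  refine ⟨inferInstance, ?_⟩
  rcases k with _ | k
  · have : Subsingleton (A ⧸ maximalIdeal A ^ 0) := by
      rw [pow_zero, Ideal.one_eq_top]; exact Submodule.Quotient.subsingleton_iff.2 rfl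
    infer_instance
  · have : IsArtinianRing (A ⧸ maximalIdeal A ^ (k + 1)) :=
      IsLocalRing.quotient_artinian_of_mem_minimalPrimes_of_isLocalRing _
        ⟨⟨(maximalIdeal.isMaximal A).isPrime, Ideal.pow_le_self (Nat.succ_ne_zero k)⟩,
          fun J hJ _ => (hJ.1.pow_le_iff (Nat.succ_ne_zero k)).1 hJ.2⟩
    exact isArtinian_of_surjective_algebraMap
      (show Function.Surjective (algebraMap A (A ⧸ maximalIdeal A ^ (k + 1))) from
        Ideal.Quotient.mk_surjective)

end Vale.Agent.P202
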