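import Mathlib

/-! Flat local maps with artinian closed fibre: if the generators of the maximal ideal of the fibre
satisfy no relation of degree at most `q` and its `(q + c)`-th power vanishes, then
`n ^ (c N + q) ⊆ (m S) ^ N`. -/

namespace Vale.Agent.P202

open IsLocalRing

section gens

variable {R S : Type*} [CommRing R] [IsLocalRing R] [IsNoetherianRing R] [CommRing S]
  [Algebra R S]

/-- Generators of `m ^ i` modulo `m ^ (i + 1)` whose relations have coefficients in `m`. -/
lemma exists_layer_gens (i : ℕ) : ∃ g : Finset R,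
    Ideal.span (g : Set R) ⊔ maximalIdeal R ^ (i + 1) = maximalIdeal R ^ i ∧
      ∀ a : g → R, ∑ k, a k * k.1 ∈ maximalIdeal R ^ (i + 1) → ∀ k, a k ∈ maximalIdeal R := by
  classical
  have hex : ∃ k, ∃ g : Finset R, g.card = k ∧
      Ideal.span (g : Set R) ⊔ maximalIdeal R ^ (i + 1) = maximalIdeal R ^ i := by
    obtain ⟨g, hg⟩ := IsNoetherian.noetherian (maximalIdeal R ^ i)
    refine ⟨g.card, g, rfl, sup_eq_left.2 ?_ |>.trans hg⟩
    exact (Ideal.pow_le_pow_right i.le_succ).trans_eq hg.symm
  obtain ⟨g, hgc, hg⟩ := Nat.find_spec hex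
  refine ⟨g, hg, fun a ha k => ?_⟩
  by_contra hk
  have hu : IsUnit (a k) := by simpa [mem_maximalIdeal] using hk
  set J := Ideal.span ((g.erase k.1 : Finset R) : Set R) ⊔ maximalIdeal R ^ (i + 1) with hJ
  have hmem : a k * k.1 ∈ J := by
    have hrest : ∑ j ∈ Finset.univ.erase k, a j * j.1 ∈ J := by
      refine Ideal.sum_mem _ fun j hj => Ideal.mul_mem_left _ _ ?_
      refine Ideal.mem_sup_left (Ideal.subset_span ?_)
      have hne : j.1 ≠ k.1 := fun h => (Finset.ne_of_mem_erase hj) (Subtype.ext h)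
      simp [hne]
    rw [← Finset.add_sum_erase _ _ (Finset.mem_univ k)] at ha
    exact (Ideal.add_mem_iff_left _ hrest).1 (Ideal.mem_sup_right ha)
  rw [Ideal.unit_mul_mem_iff_mem _ hu] at hmem
  have hle : Ideal.span (g : Set R) ≤ J := by
    refine Ideal.span_le.2 fun y hy => ?_
    by_cases h : y = k.1
    · exact h ▸ hmem
    · exact Ideal.mem_sup_left (Ideal.subset_span (by simp [h]; exact hy))
  have heq : J = maximalIdeal R ^ i :=
    le_antisymm (hg ▸ sup_le_sup_right (Ideal.span_mono (by simp)) _)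
      (hg ▸ sup_le hle le_sup_right)
  refine Nat.find_min hex ?_ ⟨g.erase k.1, rfl, heq⟩
  rw [← hgc]
  exact Finset.card_erase_lt_of_mem k.2

/-- The extended maximal ideal `m S`. -/
noncomputable abbrev ext (R S : Type*) [CommRing R] [CommRing S] [IsLocalRing R] [Algebra R S] :
    Ideal S := (maximalIdeal R).map (algebraMap R S)

/-- By flatness, coefficients on layer generators are unique modulo `m S`. -/
lemma layer [Module.Flat R S] (i : ℕ) : ∃ g : Finset R,
    (∀ k : g, algebraMap R S k.1 ∈ ext R S ^ i) ∧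
    (∀ y ∈ ext R S ^ i, ∃ f : g → S, y - ∑ k, algebraMap R S k.1 * f k ∈ ext R S ^ (i + 1)) ∧
    (∀ f : g → S, ∑ k, algebraMap R S k.1 * f k ∈ ext R S ^ (i + 1) → ∀ k, f k ∈ ext R S) := by
  obtain ⟨g, hg, hrel⟩ := exists_layer_gens (R := R) i
  refine ⟨g, fun k => ?_, fun y hy => ?_, fun f hf k => ?_⟩
  · rw [← Ideal.map_pow]
    exact Ideal.mem_map_of_mem _ (hg.le (Ideal.mem_sup_left (Ideal.subset_span k.2)))
  · have e : ext R S ^ i =
        Ideal.span (Set.range fun k : g => algebraMap R S k.1) ⊔ ext R S ^ (i + 1) := by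
      rw [← Ideal.map_pow, ← Ideal.map_pow, ← hg, Ideal.map_sup, Ideal.map_span]
      congr 2; ext; simp
    rw [e, Submodule.mem_sup] at hy
    obtain ⟨a, ha, b, hb, rfl⟩ := hy
    obtain ⟨f, hf⟩ := Ideal.mem_span_range_iff_exists_fun.1 ha
    refine ⟨f, ?_⟩
    rw [← hf]; simpa [mul_comm] using hb
  · obtain ⟨h, hh⟩ := IsNoetherian.noetherian (maximalIdeal R ^ (i + 1))
    have e : ext R S ^ (i + 1) = Ideal.span (Set.range fun l : h => algebraMap R S l.1) := by
      rw [← Ideal.map_pow, ← hh, Ideal.map_span]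
      congr 1; ext; simp
    rw [e] at hf
    obtain ⟨b, hb⟩ := Ideal.mem_span_range_iff_exists_fun.1 hf
    have hzero : ∑ x : g ⊕ h, (Sum.elim (fun k : g => k.1) (fun l : h => l.1) x) •
        (Sum.elim f (fun l => - b l) x) = 0 := by
      simp only [Fintype.sum_sum_type, Sum.elim_inl, Sum.elim_inr, Algebra.smul_def, mul_neg,
        Finset.sum_neg_distrib]
      rw [← hb]; simp [mul_comm]
    obtain ⟨κ, a, y, hy, ha⟩ :=
      Module.Flat.isTrivialRelation_of_sum_smul_eq_zero (R := R) (M := S)
        (f := fun z : g ⊕ h => Sum.elim (fun k : g => k.1) (fun l : h => l.1) z)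
        (x := fun z => Sum.elim f (fun l => - b l) z) (by convert hzero using 2)
    have hfk : f k = _ := hy (Sum.inl k)
    rw [hfk]
    refine Ideal.sum_mem _ fun j _ => ?_
    rw [Algebra.smul_def]
    refine Ideal.mul_mem_right _ _ (Ideal.mem_map_of_mem _ (hrel (fun k => a (Sum.inl k) j) ?_ k))
    have := ha j
    simp only [Fintype.sum_sum_type, Sum.elim_inl, Sum.elim_inr] at this
    rw [show ∑ k : g, a (Sum.inl k) j * k.1 = -∑ l : h, l.1 * a (Sum.inr l) j by
      rw [eq_neg_iff_add_eq_zero, ← this]; simp [mul_comm]]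
    exact (Ideal.neg_mem_iff _).2 (Ideal.sum_mem _ fun l _ =>
      Ideal.mul_mem_right _ _ (hh.le (Ideal.subset_span l.2)))

end gens

section fibre

variable {S : Type*} [CommRing S] [IsLocalRing S] {e : ℕ} (x : Fin e → S) (I : Ideal S)

/-- The monomial of a multiset of indices. -/
noncomputable def mon (γ : Multiset (Fin e)) : S := (γ.map x).prod

/-- The weighted filtration: `U 0 d = ⊤`, `U (K + 1) d = n ^ d + I U K (d - c)`. -/
noncomputable def U (c : ℕ) : ℕ → ℕ → Ideal S
  | 0, _ => ⊤
  | K + 1, d => maximalIdeal S ^ d ⊔ I * U c K (d - c)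

lemma U_zero (c K : ℕ) : U I c K 0 = ⊤ := by cases K <;> simp [U]

lemma U_anti (c : ℕ) : ∀ K {d d' : ℕ}, d ≤ d' → U I c K d' ≤ U I c K d
  | 0, _, _, _ => le_rfl
  | K + 1, d, d', h => sup_le_sup (Ideal.pow_le_pow_right h)
      (Ideal.mul_mono le_rfl (U_anti c K (by omega)))

lemma mul_U (c : ℕ) : ∀ K d, maximalIdeal S * U I c K d ≤ U I c K (d + 1)
  | 0, _ => le_top
  | K + 1, d => by
    simp only [U, Ideal.mul_sup]
    refine sup_le_sup (by rw [← pow_succ']) ?_
    rw [mul_left_comm]
    exact Ideal.mul_mono le_rfl ((mul_U c K _).trans (U_anti I c K (by omega)))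

lemma pow_mul_U (c K d : ℕ) : ∀ t, maximalIdeal S ^ t * U I c K d ≤ U I c K (d + t)
  | 0 => by simp
  | t + 1 => by
    rw [pow_succ', mul_assoc]
    exact (Ideal.mul_mono le_rfl (pow_mul_U c K d t)).trans (mul_U I c K _)

/-- The generators satisfy no relation of degree at most `q` in the fibre. -/
def NoRel (q : ℕ) : Prop :=
  ∀ j ≤ q, ∀ a : Sym (Fin e) j → S,
    ∑ α, a α * mon x (α : Multiset (Fin e)) ∈ maximalIdeal S ^ (j + 1) ⊔ I →
      ∀ α, a α ∈ maximalIdeal S

variable {x I}

lemma mon_mem (hn : maximalIdeal S = I ⊔ Ideal.span (Set.range x)) (γ : Multiset (Fin e)) :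
    mon x γ ∈ maximalIdeal S ^ Multiset.card γ := by
  induction γ using Multiset.induction_on with
  | empty => simp [mon]
  | cons p γ ih =>
    rw [Multiset.card_cons, pow_succ', mon, Multiset.map_cons, Multiset.prod_cons]
    exact Ideal.mul_mem_mul (hn ▸ Ideal.mem_sup_right (Ideal.subset_span ⟨p, rfl⟩)) ih

/-- Expansion of `n ^ j` in monomials. -/
lemma pow_le_mon (hn : maximalIdeal S = I ⊔ Ideal.span (Set.range x)) : ∀ j,
    maximalIdeal S ^ j ≤ Ideal.span (Set.range fun α : Sym (Fin e) j =>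
      mon x (α : Multiset (Fin e))) ⊔ I * maximalIdeal S ^ (j - 1)
  | 0 => by
    refine le_sup_of_le_left ?_
    rw [pow_zero, Ideal.one_eq_top, top_le_iff, Ideal.eq_top_iff_one]
    exact Ideal.subset_span ⟨Sym.nil, by simp [mon]⟩
  | j + 1 => by
    rw [pow_succ']
    nth_rewrite 1 [hn]
    rw [Ideal.sup_mul]
    refine sup_le ?_ ?_
    · exact le_sup_of_le_right (by simp)
    refine (Ideal.mul_mono le_rfl (pow_le_mon hn j)).trans ?_
    rw [Ideal.mul_sup, Ideal.span_mul_span']
    refine sup_le_sup (Ideal.span_mono ?_) ?_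
    · rintro _ ⟨_, ⟨p, rfl⟩, _, ⟨α, rfl⟩, rfl⟩
      exact ⟨p ::ₛ α, by simp [mon, Sym.coe_cons]⟩
    · rw [mul_left_comm]
      refine Ideal.mul_mono le_rfl ?_
      rw [Nat.add_sub_cancel]
      refine (Ideal.mul_mono (hn ▸ le_sup_right) le_rfl).trans ?_
      rw [← pow_succ']
      exact Ideal.pow_le_pow_right (by omega)

lemma sum_cons {j : ℕ} (a : Sym (Fin e) j → S) (q : Fin e) :
    x q * ∑ α, a α * mon x (α : Multiset (Fin e)) =
      ∑ β : Sym (Fin e) (j + 1),
        (if h : q ∈ β then a (β.erase q h) else 0) * mon x (β : Multiset (Fin e)) := by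
  classical
  rw [Finset.mul_sum]
  refine Fintype.sum_of_injective (fun α => q ::ₛ α) (fun α α' h => (Sym.cons_inj_right q α α').1 h)
    _ _ (fun β hβ => ?_) (fun α => ?_)
  · rw [dif_neg fun h => hβ ⟨β.erase q h, Sym.cons_erase h⟩, zero_mul]
  · rw [dif_pos (Sym.mem_cons_self q α)]
    simp [mon, Sym.coe_cons, mul_left_comm]

/-- Modulo `I`, a compatible family indexed by monomials of degree `s > E` vanishes below `E`. -/
lemma family_mod (hn : maximalIdeal S = I ⊔ Ideal.span (Set.range x)) (he : 2 ≤ e) {q : ℕ}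
    (hfree : NoRel x I q) {s E : ℕ} (hE : E ≤ q) (hEs : E ≤ s)
    (f : Multiset (Fin e) → S)
    (hf : ∀ γ : Multiset (Fin e), Multiset.card γ = s → ∀ p ∈ γ, ∀ r,
      x r * f γ - x p * f (r ::ₘ γ.erase p) ∈ maximalIdeal S ^ (E + 1) ⊔ I) :
    ∀ γ : Multiset (Fin e), Multiset.card γ = s → f γ ∈ maximalIdeal S ^ E ⊔ I := by
  classical
  suffices ∀ j ≤ E, ∀ γ : Multiset (Fin e), Multiset.card γ = s →
      f γ ∈ maximalIdeal S ^ j ⊔ I from this E le_rfl
  intro j
  induction j with
  | zero => intro _ γ _; simp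
  | succ j ih =>
    intro hj
    have hex : ∀ γ : Multiset (Fin e), ∃ a : Sym (Fin e) j → S, Multiset.card γ = s →
        f γ - ∑ α, a α * mon x (α : Multiset (Fin e)) ∈ I := by
      intro γ
      by_cases hγ : Multiset.card γ = s
      · obtain ⟨u, hu, v, hv, huv⟩ := Submodule.mem_sup.1 (ih (by omega) γ hγ)
        obtain ⟨u', hu', w, hw, hu''⟩ := Submodule.mem_sup.1 (pow_le_mon hn j hu)
        obtain ⟨a, ha⟩ := Ideal.mem_span_range_iff_exists_fun.1 hu'
        refine ⟨a, fun _ => ?_⟩
        rw [← huv, ← hu'', ← ha, add_assoc, add_sub_cancel_left]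
        exact I.add_mem (Ideal.mul_le_left hw) hv
      · exact ⟨0, fun h => absurd h hγ⟩
    choose C hC using hex
    have key : ∀ γ : Multiset (Fin e), Multiset.card γ = s → ∀ p ∈ γ, ∀ r,
        ∀ β : Sym (Fin e) (j + 1),
        (if h : r ∈ β then C γ (β.erase r h) else 0) -
          (if h : p ∈ β then C (r ::ₘ γ.erase p) (β.erase p h) else 0) ∈ maximalIdeal S := by
      intro γ hγ p hp r
      have hγ' : Multiset.card (r ::ₘ γ.erase p) = s := by
        rw [Multiset.card_cons, Multiset.card_erase_add_one hp, hγ]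
      refine hfree (j + 1) (by omega) _ ?_
      simp only [sub_mul, Finset.sum_sub_distrib, ← sum_cons]
      have e1 : maximalIdeal S ^ (E + 1) ⊔ I ≤ maximalIdeal S ^ (j + 1 + 1) ⊔ I :=
        sup_le_sup_right (Ideal.pow_le_pow_right (by omega)) _
      have m1 := e1 (hf γ hγ p hp r)
      have m2 : x r * (f γ - ∑ α, C γ α * mon x (α : Multiset (Fin e))) ∈
          maximalIdeal S ^ (j + 1 + 1) ⊔ I :=
        Ideal.mem_sup_right (I.mul_mem_left _ (hC γ hγ))
      have m3 : x p * (f (r ::ₘ γ.erase p) -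
          ∑ α, C (r ::ₘ γ.erase p) α * mon x (α : Multiset (Fin e))) ∈
            maximalIdeal S ^ (j + 1 + 1) ⊔ I :=
        Ideal.mem_sup_right (I.mul_mem_left _ (hC _ hγ'))
      convert add_mem (sub_mem m1 m2) m3 using 1
      ring
    have vanish : ∀ k (γ : Multiset (Fin e)) (α : Sym (Fin e) j) (p : Fin e),
        Multiset.card γ = s → Multiset.count p (α : Multiset (Fin e)) = k →
        k < Multiset.count p γ → C γ α ∈ maximalIdeal S := by
      intro k
      induction k with
      | zero =>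
        intro γ α p hγ hα hlt
        obtain ⟨r, hr⟩ : ∃ r : Fin e, r ≠ p := by
          haveI : Nontrivial (Fin e) := Fin.nontrivial_iff_two_le.2 he
          exact exists_ne p
        have := key γ hγ p (Multiset.count_pos.1 hlt) r (r ::ₛ α)
        have hp : p ∉ r ::ₛ α := by
          rw [Sym.mem_cons, not_or]
          exact ⟨hr.symm, fun h => Multiset.count_eq_zero.1 hα h⟩
        rw [dif_pos (Sym.mem_cons_self r α), dif_neg hp, sub_zero, Sym.erase_cons_head] at this
        exact this
      | succ k ihk =>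
        intro γ α p hγ hα hlt
        obtain ⟨r, hr⟩ : ∃ r : Fin e, r ≠ p := by
          haveI : Nontrivial (Fin e) := Fin.nontrivial_iff_two_le.2 he
          exact exists_ne p
        have hpγ : p ∈ γ := Multiset.count_pos.1 (by omega)
        have := key γ hγ p hpγ r (r ::ₛ α)
        have hp : p ∈ r ::ₛ α := Sym.mem_cons_of_mem
          ((Multiset.count_pos (a := p) (s := (α : Multiset (Fin e)))).1 (by omega))
        rw [dif_pos (Sym.mem_cons_self r α), dif_pos hp, Sym.erase_cons_head] at this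
        have hγ' : Multiset.card (r ::ₘ γ.erase p) = s := by
          rw [Multiset.card_cons, Multiset.card_erase_add_one hpγ, hγ]
        have hnext : C (r ::ₘ γ.erase p) ((r ::ₛ α).erase p hp) ∈ maximalIdeal S := by
          refine ihk _ _ p hγ' ?_ ?_
          · rw [Sym.coe_erase, Sym.coe_cons, Multiset.count_erase_self,
              Multiset.count_cons_of_ne hr.symm, hα]
            rfl
          · rw [Multiset.count_cons_of_ne hr.symm, Multiset.count_erase_self]; omega
        simpa using add_mem this hnext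
    intro γ hγ
    have hsum : ∑ α, C γ α * mon x (α : Multiset (Fin e)) ∈ maximalIdeal S ^ (j + 1) := by
      refine Ideal.sum_mem _ fun α _ => ?_
      obtain ⟨p, hp⟩ : ∃ p, Multiset.count p (α : Multiset (Fin e)) < Multiset.count p γ := by
        by_contra hcon
        push Not at hcon
        have := Multiset.card_le_card (Multiset.le_iff_count.2 hcon)
        rw [hγ, Sym.card_coe] at this
        omega
      rw [pow_succ']
      refine Ideal.mul_mem_mul (vanish _ γ α p hγ rfl hp) ?_
      have := mon_mem hn (α : Multiset (Fin e))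
      rwa [Sym.card_coe] at this
    exact Submodule.mem_sup.2 ⟨_, hsum, _, hC γ hγ, add_sub_cancel _ _⟩

/-- Modulo `I`, degree-by-degree cancellation. -/
lemma cancel_mod (hn : maximalIdeal S = I ⊔ Ideal.span (Set.range x)) {q : ℕ}
    (hfree : NoRel x I q) {E : ℕ} (hE : E ≤ q) (p : Fin e) {f : S}
    (hf : x p * f ∈ maximalIdeal S ^ (E + 1) ⊔ I) : f ∈ maximalIdeal S ^ E ⊔ I := by
  classical
  suffices ∀ j ≤ E, f ∈ maximalIdeal S ^ j ⊔ I from this E le_rfl
  intro j
  induction j with
  | zero => intro _; simp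
  | succ j ih =>
    intro hj
    obtain ⟨u, hu, v, hv, huv⟩ := Submodule.mem_sup.1 (ih (by omega))
    obtain ⟨u', hu', w, hw, hu''⟩ := Submodule.mem_sup.1 (pow_le_mon hn j hu)
    obtain ⟨a, ha⟩ := Ideal.mem_span_range_iff_exists_fun.1 hu'
    have hrest : f - ∑ α, a α * mon x (α : Multiset (Fin e)) ∈ I := by
      rw [← huv, ← hu'', ← ha, add_assoc, add_sub_cancel_left]
      exact I.add_mem (Ideal.mul_le_left hw) hv
    have hco : ∀ α, a α ∈ maximalIdeal S := by
      intro α
      have h1 : x p * ∑ α, a α * mon x (α : Multiset (Fin e)) ∈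
          maximalIdeal S ^ (j + 1 + 1) ⊔ I := by
        have e1 : maximalIdeal S ^ (E + 1) ⊔ I ≤ maximalIdeal S ^ (j + 1 + 1) ⊔ I :=
          sup_le_sup_right (Ideal.pow_le_pow_right (by omega)) _
        convert sub_mem (e1 hf) (Ideal.mem_sup_right (I.mul_mem_left (x p) hrest)) using 1
        ring
      rw [sum_cons] at h1
      have := hfree (j + 1) (by omega) _ h1 (p ::ₛ α)
      rwa [dif_pos (Sym.mem_cons_self p α), Sym.erase_cons_head] at this
    refine Submodule.mem_sup.2 ⟨_, Ideal.sum_mem _ fun α _ => ?_, _, hrest, add_sub_cancel _ _⟩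
    rw [pow_succ']
    refine Ideal.mul_mem_mul (hco α) ?_
    have := mon_mem hn (α : Multiset (Fin e))
    rwa [Sym.card_coe] at this

end fibre

section lift

variable {R S : Type*} [CommRing R] [IsLocalRing R] [IsNoetherianRing R] [CommRing S]
  [IsLocalRing S] [Algebra R S] [Module.Flat R S] [IsLocalHom (algebraMap R S)] {e : ℕ}
  {x : Fin e → S}

lemma mS_le' : ext R S ≤ maximalIdeal S :=
  le_maximalIdeal (map_maximalIdeal_lt_top (algebraMap R S)).ne

/-- The inductive property: `n ^ d ∩ m S ⊆ (m S) U K (d - c)`. -/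
def Cap (R S : Type*) [CommRing R] [IsLocalRing R] [CommRing S] [IsLocalRing S] [Algebra R S]
    (c K : ℕ) : Prop :=
  ∀ d, maximalIdeal S ^ d ⊓ ext R S ≤ ext R S * U (ext R S) c K (d - c)

/-- Coefficients of an element of `(m S) ^ i U (K + 1) E` on layer generators. -/
lemma layer_coeff (i : ℕ) (g : Finset R)
    (hexp : ∀ y ∈ ext R S ^ i, ∃ f : g → S,
      y - ∑ k, algebraMap R S k.1 * f k ∈ ext R S ^ (i + 1))
    {J : Ideal S} {y : S} (hy : y ∈ ext R S ^ i * J) :
    ∃ f : g → S, (∀ k, f k ∈ J) ∧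
      y - ∑ k, algebraMap R S k.1 * f k ∈ ext R S ^ (i + 1) * J := by
  induction hy using Submodule.mul_induction_on' with
  | mem_mul_mem a ha b hb =>
    obtain ⟨f, hf⟩ := hexp a ha
    refine ⟨fun k => f k * b, fun k => J.mul_mem_left _ hb, ?_⟩
    convert Ideal.mul_mem_mul hf hb using 1
    rw [sub_mul, Finset.sum_mul]; simp [mul_assoc]
  | add y₁ _ y₂ _ ih₁ ih₂ =>
    obtain ⟨f₁, h₁, e₁⟩ := ih₁
    obtain ⟨f₂, h₂, e₂⟩ := ih₂
    refine ⟨fun k => f₁ k + f₂ k, fun k => J.add_mem (h₁ k) (h₂ k), ?_⟩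
    convert add_mem e₁ e₂ using 1
    simp only [mul_add, Finset.sum_add_distrib]; ring

/-- Elements of the filtration lying one layer deeper. -/
lemma cap_layer {c K : ℕ} (hB : Cap R S c K) (i d : ℕ) {y : S}
    (hy : y ∈ ext R S ^ i * U (ext R S) c (K + 1) d) (hy' : y ∈ ext R S ^ (i + 1)) :
    y ∈ ext R S ^ (i + 1) * U (ext R S) c K (d - c) := by
  obtain ⟨g, hg, hexp, huniq⟩ := layer (R := R) (S := S) i
  obtain ⟨F, hF, hrest⟩ := layer_coeff i g hexp hy
  have hFI : ∀ k, F k ∈ ext R S := huniq F (by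
    simpa using sub_mem hy' (Ideal.mul_le_left hrest))
  have hrest' : y - ∑ k, algebraMap R S k.1 * F k ∈
      ext R S ^ (i + 1) * U (ext R S) c K (d - c) := by
    refine Ideal.mul_mono le_rfl (sup_le ?_ ?_) hrest
    · cases K with
      | zero => exact le_top
      | succ K => exact le_sup_of_le_left (Ideal.pow_le_pow_right (Nat.sub_le d c))
    · refine (Ideal.mul_mono mS_le' le_rfl).trans ((mul_U _ c K _).trans ?_)
      exact U_anti _ c K (Nat.le_succ _)
  have hsum : ∑ k, algebraMap R S k.1 * F k ∈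
      ext R S ^ (i + 1) * U (ext R S) c K (d - c) := by
    refine Ideal.sum_mem _ fun k _ => ?_
    rw [pow_succ, mul_assoc]
    refine Ideal.mul_mem_mul (hg k) ?_
    obtain ⟨u, hu, v, hv, huv⟩ := Submodule.mem_sup.1 (hF k)
    rw [← huv]
    refine add_mem (hB d ⟨hu, ?_⟩) hv
    have := sub_mem (hFI k) (Ideal.mul_le_left hv)
    rwa [← huv, add_sub_cancel_right] at this
  simpa using add_mem hrest' hsum

variable (R) in
/-- The lifted statements about families and about cancellation. -/
def Lifted (x : Fin e → S) (c q s K : ℕ) : Prop :=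
  ∀ i E, E ≤ q →
    (∀ f : Multiset (Fin e) → S, (∀ γ, Multiset.card γ = s → f γ ∈ ext R S ^ i) →
      (∀ γ : Multiset (Fin e), Multiset.card γ = s → ∀ p ∈ γ, ∀ r,
        x r * f γ - x p * f (r ::ₘ γ.erase p) ∈ ext R S ^ i * U (ext R S) c K (E + 1)) →
      ∀ γ, Multiset.card γ = s → f γ ∈ ext R S ^ i * U (ext R S) c K E) ∧
    (∀ p f, f ∈ ext R S ^ i → x p * f ∈ ext R S ^ i * U (ext R S) c K (E + 1) →
      f ∈ ext R S ^ i * U (ext R S) c K E)

lemma U_le_sup (c K E : ℕ) :
    U (ext R S) c (K + 1) E ≤ maximalIdeal S ^ E ⊔ ext R S :=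
  sup_le_sup le_rfl Ideal.mul_le_left

lemma lifted (hn : maximalIdeal S = ext R S ⊔ Ideal.span (Set.range x)) (he : 2 ≤ e)
    {c q s : ℕ} (hq : q ≤ s) (hfree : NoRel x (ext R S) q) :
    ∀ K, (∀ K' < K, Cap R S c K') → Lifted R x c q s K := by
  intro K
  induction K with
  | zero =>
    intro _ i E _
    refine ⟨fun f hf _ γ hγ => ?_, fun p f hf _ => ?_⟩
    · simpa [U] using hf γ hγ
    · simpa [U] using hf
  | succ K ih =>
    intro hcap i E hE
    have ihK := ih (fun K' h => hcap K' (by omega))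
    obtain ⟨g, hg, hexp, huniq⟩ := layer (R := R) (S := S) i
    have hB := hcap K (Nat.lt_succ_self K)
    have coeff : ∀ {y : S} (F : g → S), y - ∑ k, algebraMap R S k.1 * F k ∈ ext R S ^ (i + 1) →
        y ∈ ext R S ^ i * U (ext R S) c (K + 1) (E + 1) →
        ∀ k, F k ∈ maximalIdeal S ^ (E + 1) ⊔ ext R S := by
      intro y F hF hy k
      obtain ⟨G, hG, hG'⟩ := layer_coeff i g hexp hy
      have := huniq (fun k => F k - G k) (by
        convert sub_mem (Ideal.mul_le_left hG') hF using 1
        simp only [mul_sub, Finset.sum_sub_distrib]; ring) k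
      simpa using add_mem (Ideal.mem_sup_right this) (U_le_sup c K (E + 1) (hG k))
    have lowU : maximalIdeal S ^ E ≤ U (ext R S) c (K + 1) E := le_sup_left
    have deep : ext R S ^ (i + 1) * U (ext R S) c K (E - c) ≤
        ext R S ^ i * U (ext R S) c (K + 1) E := by
      rw [pow_succ, mul_assoc]
      exact Ideal.mul_mono le_rfl le_sup_right
    have deep0 : E < c → ext R S ^ (i + 1) ≤ ext R S ^ i * U (ext R S) c (K + 1) E := fun h => by
      refine le_trans ?_ deep
      rw [Nat.sub_eq_zero_of_le h.le, U_zero, Ideal.mul_top]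
    refine ⟨fun f hf hrel γ hγ => ?_, fun p f hf hrel => ?_⟩
    · have hex : ∀ γ : Multiset (Fin e), ∃ F : g → S, Multiset.card γ = s →
          f γ - ∑ k, algebraMap R S k.1 * F k ∈ ext R S ^ (i + 1) := fun γ => by
        by_cases h : Multiset.card γ = s
        · obtain ⟨F, hF⟩ := hexp _ (hf γ h); exact ⟨F, fun _ => hF⟩
        · exact ⟨0, fun h' => absurd h' h⟩
      choose F hF using hex
      have hmodI : ∀ k, ∀ γ : Multiset (Fin e), Multiset.card γ = s →
          F γ k ∈ maximalIdeal S ^ E ⊔ ext R S := by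
        intro k
        refine family_mod hn he hfree hE (hE.trans hq) (fun γ => F γ k) fun γ hγ p hp r => ?_
        have hγ' : Multiset.card (r ::ₘ γ.erase p) = s := by
          rw [Multiset.card_cons, Multiset.card_erase_add_one hp, hγ]
        refine coeff (fun k => x r * F γ k - x p * F (r ::ₘ γ.erase p) k) ?_ (hrel γ hγ p hp r) k
        convert sub_mem (Ideal.mul_mem_left _ (x r) (hF γ hγ))
          (Ideal.mul_mem_left _ (x p) (hF _ hγ')) using 1
        simp only [mul_sub, Finset.sum_sub_distrib, Finset.mul_sum]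
        simp only [mul_left_comm]
        ring
      have hex2 : ∀ γ : Multiset (Fin e), ∃ G : g → S, (∀ k, G k ∈ maximalIdeal S ^ E) ∧
          (Multiset.card γ = s → ∀ k, F γ k - G k ∈ ext R S) := fun γ => by
        by_cases h : Multiset.card γ = s
        · have := fun k => Submodule.mem_sup.1 (hmodI k γ h)
          choose G hG I' hI' heq using this
          exact ⟨G, hG, fun _ k => by rw [← heq k]; simpa using hI' k⟩
        · exact ⟨0, fun _ => zero_mem _, fun h' => absurd h' h⟩
      choose G hG hFG using hex2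
      let h : Multiset (Fin e) → S := fun γ => f γ - ∑ k, algebraMap R S k.1 * G γ k
      have hh : ∀ γ : Multiset (Fin e), Multiset.card γ = s → h γ ∈ ext R S ^ (i + 1) := by
        intro γ hγ
        have : ∑ k, algebraMap R S k.1 * (F γ k - G γ k) ∈ ext R S ^ (i + 1) := by
          rw [pow_succ]
          exact Ideal.sum_mem _ fun k _ => Ideal.mul_mem_mul (hg k) (hFG γ hγ k)
        convert add_mem (hF γ hγ) this using 1
        simp only [h, mul_sub, Finset.sum_sub_distrib]; ring
      have hGU : ∀ γ, ∑ k, algebraMap R S k.1 * G γ k ∈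
          ext R S ^ i * U (ext R S) c (K + 1) E := fun γ =>
        Ideal.sum_mem _ fun k _ => Ideal.mul_mem_mul (hg k) (lowU (hG γ k))
      have hfin : h γ ∈ ext R S ^ i * U (ext R S) c (K + 1) E := by
        by_cases hEc : E < c
        · exact deep0 hEc (hh γ hγ)
        · refine deep ((ihK (i + 1) (E - c) (by omega)).1 h hh (fun γ hγ p hp r => ?_) γ hγ)
          have hγ' : Multiset.card (r ::ₘ γ.erase p) = s := by
            rw [Multiset.card_cons, Multiset.card_erase_add_one hp, hγ]
          rw [show E - c + 1 = E + 1 - c by omega]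
          refine cap_layer hB i (E + 1) ?_
            (sub_mem (Ideal.mul_mem_left _ _ (hh γ hγ)) (Ideal.mul_mem_left _ _ (hh _ hγ')))
          have up : ∀ r γ, x r * ∑ k, algebraMap R S k.1 * G γ k ∈
              ext R S ^ i * U (ext R S) c (K + 1) (E + 1) := fun r γ => by
            refine (?_ : maximalIdeal S * (ext R S ^ i * U (ext R S) c (K + 1) E) ≤ _)
              (Ideal.mul_mem_mul (hn ▸ Ideal.mem_sup_right (Ideal.subset_span ⟨r, rfl⟩)) (hGU γ))
            rw [mul_left_comm]
            exact Ideal.mul_mono le_rfl (mul_U _ c (K + 1) E)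
          convert add_mem (sub_mem (hrel γ hγ p hp r) (up r γ)) (up p (r ::ₘ γ.erase p)) using 1
          simp only [h]; ring
      have := add_mem hfin (hGU γ)
      simpa [h] using this
    · obtain ⟨F, hF⟩ := hexp f hf
      have hmodI : ∀ k, F k ∈ maximalIdeal S ^ E ⊔ ext R S := fun k => by
        refine cancel_mod hn hfree hE p (coeff (fun k => x p * F k) ?_ hrel k)
        convert Ideal.mul_mem_left _ (x p) hF using 1
        simp only [mul_sub, Finset.mul_sum, mul_left_comm]
      choose G hG I' hI' heq using fun k => Submodule.mem_sup.1 (hmodI k)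
      have hh : f - ∑ k, algebraMap R S k.1 * G k ∈ ext R S ^ (i + 1) := by
        have : ∑ k, algebraMap R S k.1 * I' k ∈ ext R S ^ (i + 1) := by
          rw [pow_succ]
          exact Ideal.sum_mem _ fun k _ => Ideal.mul_mem_mul (hg k) (hI' k)
        convert add_mem hF this using 1
        simp only [← heq, mul_add, Finset.sum_add_distrib]; ring
      have hGU : ∑ k, algebraMap R S k.1 * G k ∈ ext R S ^ i * U (ext R S) c (K + 1) E :=
        Ideal.sum_mem _ fun k _ => Ideal.mul_mem_mul (hg k) (lowU (hG k))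
      have hfin : f - ∑ k, algebraMap R S k.1 * G k ∈
          ext R S ^ i * U (ext R S) c (K + 1) E := by
        by_cases hEc : E < c
        · exact deep0 hEc hh
        · refine deep ((ihK (i + 1) (E - c) (by omega)).2 p _ hh ?_)
          rw [show E - c + 1 = E + 1 - c by omega]
          refine cap_layer hB i (E + 1) ?_ (Ideal.mul_mem_left _ _ hh)
          have up : x p * ∑ k, algebraMap R S k.1 * G k ∈
              ext R S ^ i * U (ext R S) c (K + 1) (E + 1) := by
            refine (?_ : maximalIdeal S * (ext R S ^ i * U (ext R S) c (K + 1) E) ≤ _)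
              (Ideal.mul_mem_mul (hn ▸ Ideal.mem_sup_right (Ideal.subset_span ⟨p, rfl⟩)) hGU)
            rw [mul_left_comm]
            exact Ideal.mul_mono le_rfl (mul_U _ c (K + 1) E)
          rw [mul_sub]
          exact sub_mem hrel up
      simpa using add_mem hfin hGU

lemma cap_all
    (hn : maximalIdeal S = ext R S ⊔ Ideal.span (Set.range x)) (he : 2 ≤ e)
    {c q : ℕ} (hc : 1 ≤ c) (hs : maximalIdeal S ^ (q + c) ≤ ext R S)
    (hfree : NoRel x (ext R S) q) : ∀ K, Cap R S c K := by
  intro K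
  induction K using Nat.strong_induction_on with
  | _ K ih =>
  have hL := lifted hn he (c := c) (q := q) (s := q + c) (Nat.le_add_right q c) hfree K ih 1
  have top : maximalIdeal S ^ (q + c) ≤ ext R S * U (ext R S) c K q := by
    refine (pow_le_mon hn (q + c)).trans (sup_le (Ideal.span_le.2 ?_) ?_)
    · rintro _ ⟨α, rfl⟩
      have := (hL q le_rfl).1 (fun γ => mon x γ) (fun γ hγ => ?_) (fun γ _ p hp r => ?_) _ α.2
      · simpa using this
      · rw [pow_one]; exact hs (hγ ▸ mon_mem hn γ)
      · convert Ideal.zero_mem _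
        conv_lhs => arg 1; rw [← Multiset.cons_erase hp]
        simp [mon]; ring
    · refine Ideal.mul_mono le_rfl ?_
      cases K with
      | zero => exact le_top
      | succ K => exact le_sup_of_le_left (Ideal.pow_le_pow_right (by omega))
  suffices ∀ m d, q + c ≤ d + m →
      maximalIdeal S ^ d ⊓ ext R S ≤ ext R S * U (ext R S) c K (d - c) from
    fun d => this (q + c) d (by omega)
  intro m
  induction m with
  | zero =>
    intro d hd
    refine inf_le_left.trans ?_
    rw [show d = (d - (q + c)) + (q + c) by omega, pow_add]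
    refine (Ideal.mul_mono le_rfl top).trans ?_
    rw [mul_left_comm]
    exact Ideal.mul_mono le_rfl ((pow_mul_U _ c K q _).trans (U_anti _ c K (by omega)))
  | succ m ihm =>
    intro d hd f hf
    rcases Nat.lt_or_ge (d + m) (q + c) with hlt | hge
    swap
    · exact ihm d hge hf
    rcases Nat.lt_or_ge d c with hdc | hdc
    · rw [Nat.sub_eq_zero_of_le hdc.le, U_zero, Ideal.mul_top]; exact hf.2
    have hx : x ⟨0, by omega⟩ ∈ maximalIdeal S :=
      hn ▸ Ideal.mem_sup_right (Ideal.subset_span ⟨_, rfl⟩)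
    have h1 : x ⟨0, by omega⟩ * f ∈ maximalIdeal S ^ (d + 1) ⊓ ext R S :=
      ⟨pow_succ' (maximalIdeal S) d ▸ Ideal.mul_mem_mul hx hf.1, Ideal.mul_mem_left _ _ hf.2⟩
    have h2 := ihm (d + 1) (by omega) h1
    rw [show d + 1 - c = d - c + 1 by omega] at h2
    simpa using (hL (d - c) (by omega)).2 _ f (by simpa using hf.2) (by simpa using h2)

/-- Main containment. -/
theorem pow_le_ext_pow
    (hn : maximalIdeal S = ext R S ⊔ Ideal.span (Set.range x)) (he : 2 ≤ e)
    {c q : ℕ} (hc : 1 ≤ c) (hs : maximalIdeal S ^ (q + c) ≤ ext R S)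
    (hfree : NoRel x (ext R S) q) (N : ℕ) :
    maximalIdeal S ^ (c * N + q) ≤ ext R S ^ N := by
  have hcap := cap_all hn he hc hs hfree
  suffices ∀ N M, c * N + q ≤ M → U (ext R S) c N M ≤ ext R S ^ N by
    refine le_trans ?_ (this N _ le_rfl)
    cases N with
    | zero => exact le_top
    | succ N => exact le_sup_left
  intro N
  induction N with
  | zero => intro M _; simp
  | succ N ih =>
    intro M hM
    have hM' : q + c ≤ M := by nlinarith
    have h2 : ext R S * U (ext R S) c N (M - c) ≤ ext R S ^ (N + 1) := by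
      rw [pow_succ']
      exact Ideal.mul_mono le_rfl (ih _ (by rw [Nat.mul_succ] at hM; omega))
    refine sup_le ?_ h2
    exact le_trans (le_trans (le_inf le_rfl ((Ideal.pow_le_pow_right hM').trans hs)) (hcap N M)) h2

end lift

end Vale.Agent.P202
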